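import Vale.Agent.P027.H833.D.Tbs

set_option linter.all false

/-! Completeness of the tableaux of coded machines. -/

namespace Vale.Agent.P027.N.D

open Vale.Agent.Lib.PolyTime

lemma topc_lt (s : Word) : topc s < 3 := by
  rcases s with _ | ⟨b, s⟩
  · simp [topc]
  · cases b <;> simp [topc]

lemma getD_snoc (s : Word) (b : Bool) (S : ℕ) :
    (s ++ [b]).getD S false = if S = s.length then b else s.getD S false := by
  rcases lt_trichotomy S s.length with h | h | h
  · rw [if_neg (by omega), List.getD_append _ _ _ _ h]
  · rw [if_pos h, List.getD_append_right _ _ _ _ (by omega), h]; simp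
  · rw [if_neg (by omega), List.getD_eq_default _ _ (by simp; omega),
      List.getD_eq_default _ _ (by omega)]

lemma chg_opr (s : Word) (o : ℕ) (ho : o < 4) (S : ℕ) :
    chg (4 * topc s + o) (s.reverse.getD S false) (decide (S < s.length))
      (decide (S = s.length)) ((opr o s).reverse.getD S false)
      (decide (S < (opr o s).length)) (decide (S = (opr o s).length)) := by
  have ht := topc_lt s
  have push : ∀ v : Bool, (decide (S < s.length) = true ∨ decide (S = s.length) = true →
        decide (S < (v :: s).length) = true) ∧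
      (decide (S < s.length) = false ∧ decide (S = s.length) = false →
        decide (S < (v :: s).length) = false) ∧
      (decide (S = s.length) = true → (v :: s).reverse.getD S false = v) ∧
      (decide (S = s.length) = false → (v :: s).reverse.getD S false =
        s.reverse.getD S false) := by
    intro v
    refine ⟨?_, ?_, ?_, ?_⟩
    · simp only [decide_eq_true_eq, List.length_cons]; omega
    · simp only [decide_eq_false_iff_not, List.length_cons]; omega
    · intro h
      rw [List.reverse_cons, getD_snoc, if_pos (by simpa using h)]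
    · intro h
      rw [List.reverse_cons, getD_snoc, if_neg (by simpa using h)]
  obtain rfl | rfl | rfl | rfl : o = 0 ∨ o = 1 ∨ o = 2 ∨ o = 3 := by omega
  · refine ⟨fun _ => ⟨rfl, rfl, rfl⟩, fun h => ?_, fun h => ?_, fun h => ?_⟩ <;> omega
  · refine ⟨fun h => ?_, fun _ => push false, fun h => ?_, fun h => ?_⟩ <;> omega
  · refine ⟨fun h => ?_, fun h => ?_, fun _ => push true, fun h => ?_⟩ <;> omega
  · rcases s with _ | ⟨b, s⟩
    · refine ⟨fun _ => ⟨rfl, rfl, rfl⟩, fun h => ?_, fun h => ?_, fun h => ?_⟩ <;>
        simp [topc] at h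
    · have h3 : opr 3 (b :: s) = s := rfl
      rw [h3]
      refine ⟨fun h => ?_, fun h => ?_, fun h => ?_, fun _ => ⟨?_, ?_, ?_⟩⟩
      · cases b <;> simp [topc] at h
      · omega
      · omega
      · simp only [decide_eq_false_iff_not, List.length_cons]; omega
      · simp only [decide_eq_true_eq, List.length_cons]; omega
      · intro h
        rw [List.reverse_cons, getD_snoc, if_neg]
        simp only [decide_eq_true_eq] at h
        simp; omega

lemma adr_lt {w : Word} {c q x : ℕ} (h : tab w c q x = true) : adr c q x < w.length := by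
  by_contra h1
  unfold tab at h
  rw [List.getD_eq_default _ _ (by omega)] at h
  cases h

lemma lt_of_tab {w : Word} {c q x : ℕ} (h : tab w c q x = true) :
    q < w.length ∧ x < w.length := by
  have h1 := adr_lt h
  unfold adr at h1
  have h2 : q + (16 * x + c) ≤ (q + (16 * x + c)) * (q + (16 * x + c)) := Nat.le_mul_self _
  constructor <;> omega

/-- the bits of a cell -/
def bts (N q k c : ℕ) (s : ℕ → Word) (S : ℕ) (i : ℕ) : Bool :=
  if 5 * N + 13 ≤ i then decide (0 = q)
  else if i < N then decide (i = q) else if i < 2 * N then decide (i - N = k)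
  else if i < 2 * N + 12 then decide (i - 2 * N = c)
  else if (i - (2 * N + 12)) % 3 = 0 then (s ((i - (2 * N + 12)) / 3)).reverse.getD S false
  else if (i - (2 * N + 12)) % 3 = 1 then decide (S < (s ((i - (2 * N + 12)) / 3)).length)
  else decide (S = (s ((i - (2 * N + 12)) / 3)).length)

section

variable {N q k c : ℕ} {s : ℕ → Word} {S : ℕ}

lemma bts_q {a : ℕ} (ha : a < N) : bts N q k c s S a = decide (a = q) := by
  unfold bts
  rw [if_neg (by omega), if_pos ha]

lemma bts_k {a : ℕ} (ha : a < N) : kp N (bts N q k c s S) a = decide (a = k) := by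
  unfold kp bts
  rw [if_neg (by omega), if_neg (by omega), if_pos (by omega), show N + a - N = a by omega]

lemma bts_c {a : ℕ} (ha : a < 12) : th N (bts N q k c s S) a = decide (a = c) := by
  unfold th bts
  rw [if_neg (by omega), if_neg (by omega), if_neg (by omega), if_pos (by omega), show 2 * N + a - 2 * N = a by omega]

lemma bts_ct {a : ℕ} (ha : a < N) : ct N (bts N q k c s S) a = (s a).reverse.getD S false := by
  unfold ct bts
  rw [if_neg (by omega), if_neg (by omega), if_neg (by omega), if_neg (by omega), if_pos (by omega),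
    show (2 * N + 12 + 3 * a - (2 * N + 12)) / 3 = a by omega]

lemma bts_ml {a : ℕ} (ha : a < N) : ml N (bts N q k c s S) a = decide (S < (s a).length) := by
  unfold ml bts
  rw [if_neg (by omega), if_neg (by omega), if_neg (by omega), if_neg (by omega), if_neg (by omega),
    if_pos (by omega), show (2 * N + 13 + 3 * a - (2 * N + 12)) / 3 = a by omega]

lemma bts_mh {a : ℕ} (ha : a < N) : mh N (bts N q k c s S) a = decide (S = (s a).length) := by
  unfold mh bts
  rw [if_neg (by omega), if_neg (by omega), if_neg (by omega), if_neg (by omega), if_neg (by omega),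
    if_neg (by omega), show (2 * N + 14 + 3 * a - (2 * N + 12)) / 3 = a by omega]

end

lemma bts_big {N q k c : ℕ} {s : ℕ → Word} {S i : ℕ} (hN : 0 < N) (hi : 5 * N + 13 ≤ i) :
    bts N q k c s S i = bts N q k c s S 0 := by
  rw [bts_q hN]
  unfold bts
  rw [if_pos hi]

theorem tb_complete {w : Word} (hw : 2 ≤ w.length) (h : w ∈ Lg) :
    ∃ g : ℕ → ℕ → ℕ → Bool, TB w g ∧
      ∀ T S i, 5 * w.length + 13 ≤ i → g T S i = g T S 0 := by
  obtain ⟨r, hr, G, hG0, hG, hG1⟩ := h
  set N := w.length with hN
  set B := 2 ^ N with hB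
  have hWB : 2 ^ (N + 1) = 2 * B := by rw [hB]; ring
  have hBpos : 0 < B := by positivity
  have hNB : N < B := Nat.lt_two_pow_self
  have hdat : ∀ T, ∃ k o, k < N ∧ o < 4 ∧ (T < B - 1 → tab w 12 (G T).1 k = true ∧
      tab w (4 * topc ((G T).2 k) + o) (G T).1 (G (T + 1)).1 = true ∧
      (G (T + 1)).2 = Function.update (G T).2 k (opr o ((G T).2 k))) := by
    intro T
    by_cases hT : T < B - 1
    · obtain ⟨k, o, h1, h2, h3, h4⟩ := hG T hT
      exact ⟨k, o, (lt_of_tab h2).2, h1, fun _ => ⟨h2, h3, h4⟩⟩
    · exact ⟨0, 0, by omega, by omega, fun h => absurd h hT⟩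
  choose k o hkN ho hd using hdat
  have hqN : ∀ T < B, (G T).1 < N := by
    intro T hT
    by_cases h1 : T < B - 1
    · exact (lt_of_tab (hd T h1).1).1
    · have : T = B - 1 := by omega
      rw [this, hG1]; omega
  have hlen : ∀ T < B, ∀ j, ((G T).2 j).length ≤ B + T := by
    intro T
    induction T with
    | zero =>
      intro _ j
      rw [hG0]
      simp only [start_apply]
      split_ifs with h1 h2
      · omega
      · omega
      · simp
    | succ T ih =>
      intro hT j
      rw [(hd T (by omega)).2.2]
      have h1 := ih (by omega)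
      rcases eq_or_ne j (k T) with hj | hj
      · rw [hj, Function.update_self]
        have h2 := h1 (k T)
        unfold opr
        split_ifs
        · simp only [List.length_cons]; omega
        · simp only [List.length_cons]; omega
        · simp only [List.length_tail]; omega
        · omega
      · rw [Function.update_of_ne hj]
        have := h1 j
        omega
  have hc12 : ∀ T, 4 * topc ((G T).2 (k T)) + o T < 12 := fun T => by
    have := topc_lt ((G T).2 (k T))
    have := ho T
    omega
  refine ⟨fun T S => bts N (G T).1 (k T) (4 * topc ((G T).2 (k T)) + o T) (G T).2 S, ?_,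
    fun T S i hi => bts_big (by omega) hi⟩
  intro T hT S hS T' hT' S' hS'
  rw [← hN] at hT hT' hS hS'
  beta_reduce
  constructor
  · exact ⟨(G T).1, hqN T hT, by rw [bts_q (hqN T hT)]; simp⟩
  · intro a ha b hb hab
    rw [bts_q ha, bts_q hb]
    simp only [decide_eq_true_eq]
    omega
  · exact ⟨k T, hkN T, by rw [bts_k (hkN T)]; simp⟩
  · intro a ha b hb hab
    rw [bts_k ha, bts_k hb]
    simp only [decide_eq_true_eq]
    omega
  · exact ⟨_, hc12 T, by rw [bts_c (hc12 T)]; simp⟩
  · intro a ha b hb hab
    rw [bts_c ha, bts_c hb]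
    simp only [decide_eq_true_eq]
    omega
  · intro a ha
    rw [bts_ml ha, bts_mh ha]
    simp only [decide_eq_true_eq]
    omega
  · rintro rfl rfl i hi
    rw [← hN] at hi
    simp only [bts]
    have h0 : ¬ 5 * N + 13 ≤ i := by omega
    by_cases h1 : i < N
    · simp only [if_neg h0, if_pos h1]
    · by_cases h2 : i < 2 * N
      · simp only [if_neg h0, if_neg h1, if_pos h2]
      · simp only [if_neg h0, if_neg h1, if_neg h2, if_pos hi]
  · rintro rfl rfl a ha
    rw [bts_ml ha, bts_mh ha, bts_ml ha, bts_mh ha]
    simp only [decide_eq_true_eq, decide_eq_false_iff_not]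
    omega
  · rintro rfl rfl a ha h1 h2 h3
    rw [← hN] at *
    rw [bts_k ha] at h1
    rw [bts_mh ha] at h3
    simp only [decide_eq_true_eq] at h1 h3
    rw [bts_ct ha]
    subst h1
    rcases hs : (G T').2 (k T') with _ | ⟨b, s⟩
    · rw [hs] at h3; simp at h3
    · rw [hs] at h3
      simp only [List.length_cons, Nat.add_right_cancel_iff] at h3
      rw [List.reverse_cons, getD_snoc, if_pos (by simpa using h3)]
      have ho' := ho T'
      constructor
      · rintro rfl
        refine ⟨o T', ho', ?_⟩
        rw [bts_c (by omega)]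
        simp [topc]
      · rintro rfl
        refine ⟨o T', ho', ?_⟩
        rw [bts_c (by omega)]
        simp [topc]
  · rintro rfl a ha
    rw [bts_ml ha, bts_mh ha]
    simp only [decide_eq_true_eq]
    omega
  · rintro rfl a ha h1 h2
    rw [← hN] at *
    rw [bts_k ha] at h1
    rw [bts_mh ha] at h2
    simp only [decide_eq_true_eq] at h1 h2
    subst h1
    rcases hs : (G T).2 (k T) with _ | ⟨b, s⟩
    · refine ⟨o T, ho T, ?_⟩
      rw [bts_c (by have := ho T; omega)]
      simp [topc]
    · rw [hs] at h2; simp at h2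
  · intro h1 a ha
    rw [← hN] at *
    rw [bts_ml ha]
    have h2 := hlen T hT a
    simp only [decide_eq_false_iff_not]
    omega
  · rintro rfl rfl
    rw [← hN] at *
    obtain ⟨h1, h2, h3⟩ := hd T (by omega)
    refine ⟨(G T).1, hqN T hT, (G (T + 1)).1, hqN _ hT', _, hc12 T, k T, hkN T, ?_, ?_, ?_, ?_,
      h2, h1⟩
    · rw [bts_q (hqN T hT)]; simp
    · rw [bts_q (hqN _ hT')]; simp
    · rw [bts_c (hc12 T)]; simp
    · rw [bts_k (hkN T)]; simp
  · rintro rfl rfl a ha h1
    rw [← hN] at *
    rw [bts_k ha] at h1
    simp only [decide_eq_false_iff_not] at h1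
    obtain ⟨-, -, h3⟩ := hd T (by omega)
    rw [bts_ct ha, bts_ct ha, bts_ml ha, bts_ml ha, bts_mh ha, bts_mh ha, h3, Function.update_of_ne h1]
    exact ⟨rfl, rfl, rfl⟩
  · rintro rfl rfl a ha h1 c hc h2
    rw [← hN] at *
    rw [bts_k ha] at h1
    rw [bts_c hc] at h2
    simp only [decide_eq_true_eq] at h1 h2
    obtain ⟨-, -, h3⟩ := hd T (by omega)
    rw [bts_ct ha, bts_ct ha, bts_ml ha, bts_ml ha, bts_mh ha, bts_mh ha, h3, h1, Function.update_self, h2]
    exact chg_opr _ _ (ho T) _
  · rintro rfl
    rw [bts_q (by omega), hG0]; simp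
  · rintro rfl rfl
    rw [bts_mh (by omega), hG0]
    simp [start_apply]
  · rintro rfl i hi j hj hij rfl
    rw [← hN] at *
    rw [bts_ct (by omega), hG0]
    simp only [start_apply, if_true]
    have h1 : S < w.reverse.length := by simp; omega
    rw [List.getD_eq_getElem _ _ h1, List.getD_eq_getElem _ _ (show j < w.length from hj),
      List.getElem_reverse]
    congr 1
    omega
  · rintro rfl rfl a ha h1
    rw [bts_mh ha, hG0]
    simp only [start_apply]
    rw [if_neg (by omega), if_neg (by omega)]
    simp
  · rintro rfl h1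
    rw [bts_ml (by omega), hG0]
    have h5 : start w r 1 = r := by simp [start_apply]
    rw [decide_eq_false_iff_not]
    show ¬ S < (start w r 1).length
    rw [h5]
    have h6 : 2 ^ w.length = B := rfl
    omega
  · intro h1
    rw [← hN] at *
    rw [bts_q (by omega), h1, hG1]; simp

theorem tb_iff {w : Word} (hw : 2 ≤ w.length) :
    (∃ g : ℕ → ℕ → ℕ → Bool, TB w g) ↔ w ∈ Lg :=
  ⟨fun ⟨_, h⟩ => tb_sound hw h, fun h => (tb_complete hw h).imp fun _ hg => hg.1⟩

end Vale.Agent.P027.N.D
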