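import Vale.Agent.P027.H833.Uni2
import Vale.Agent.P027.H833.D.Tbc

set_option linter.all false

/-! The tableaux of coded machines as one uniform formula. -/

namespace Vale.Agent.P027.N.D

open Vale.Agent.Lib.PolyTime Vale.Agent.P027.N Vale.Agent.P027.N.U

/-- the bits of an answer -/
def fb {K : ℕ} (a : Bool → Fin (K + 1) → Bool) (t : Bool) : ℕ → Bool := fun i => a t (clamp K i)

/-! Terms; `d` is the position of the counter with the value `N`. -/

def iK (d : ℕ) (k : Bd) : Bd := .add (.var d) k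
def iT (d : ℕ) (c : Bd) : Bd := .add (.mul (.const 2) (.var d)) c
def iC (d : ℕ) (k : Bd) : Bd := .add (.add (.mul (.const 2) (.var d)) (.const 12)) (.mul (.const 3) k)
def iL (d : ℕ) (k : Bd) : Bd := .add (.add (.mul (.const 2) (.var d)) (.const 13)) (.mul (.const 3) k)
def iH (d : ℕ) (k : Bd) : Bd := .add (.add (.mul (.const 2) (.var d)) (.const 14)) (.mul (.const 3) k)

/-- the address term -/
def aT (c q x : Bd) : Bd :=
  .add (.mul (.add q (.add (.mul (.const 16) x) c)) (.add q (.add (.mul (.const 16) x) c))) q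

/-- truth -/
def uTT : UFm := .or (.lb false (.const 0) true) (.lb false (.const 0) false)

/-- falsity -/
def uFF : UFm := .and (.lb false (.const 0) true) (.lb false (.const 0) false)

/-- equality of the bits number `j` of the two answers -/
def aI (j : Bd) : UFm :=
  .or (.and (.la false j true) (.la true j true)) (.and (.la false j false) (.la true j false))

def fU1 : UFm := .any (.var 0) (.la false (.var 0) true)
def fU1' : UFm := .all (.var 0) (.all (.var 1) (.ite (.lt (.var 1) (.var 0))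
  (uNeg (.and (.la false (.var 1) true) (.la false (.var 0) true))) uTT))
def fU2 : UFm := .any (.var 0) (.la false (iK 1 (.var 0)) true)
def fU2' : UFm := .all (.var 0) (.all (.var 1) (.ite (.lt (.var 1) (.var 0))
  (uNeg (.and (.la false (iK 2 (.var 1)) true) (.la false (iK 2 (.var 0)) true))) uTT))
def fU3 : UFm := .any (.const 12) (.la false (iT 1 (.var 0)) true)
def fU3' : UFm := .all (.const 12) (.all (.const 12) (.ite (.lt (.var 1) (.var 0))
  (uNeg (.and (.la false (iT 2 (.var 1)) true) (.la false (iT 2 (.var 0)) true))) uTT))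
def fU4 : UFm := .all (.var 0)
  (uNeg (.and (.la false (iL 1 (.var 0)) true) (.la false (iH 1 (.var 0)) true)))
def fH1 : UFm := .all (.add (.mul (.const 2) (.var 0)) (.const 12)) (aI (.var 0))
def fH2 : UFm := .all (.var 0)
  (.or (.and (.la false (iL 1 (.var 0)) true) (.la true (iL 1 (.var 0)) true))
  (.or (.and (.la false (iL 1 (.var 0)) true) (.la true (iH 1 (.var 0)) true))
  (.or (.and (.la false (iH 1 (.var 0)) true)
    (.and (.la true (iL 1 (.var 0)) false) (.la true (iH 1 (.var 0)) false)))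
    (.and (.and (.la false (iL 1 (.var 0)) false) (.la false (iH 1 (.var 0)) false))
    (.and (.la true (iL 1 (.var 0)) false) (.la true (iH 1 (.var 0)) false))))))
def fH3 : UFm := .all (.var 0) (uImp (.la false (iK 1 (.var 0)) true)
  (uImp (.la false (iL 1 (.var 0)) true) (uImp (.la true (iH 1 (.var 0)) true)
    (.and (uImp (.la false (iC 1 (.var 0)) true)
      (.any (.const 4) (.la false (iT 2 (.add (.const 8) (.var 0))) true)))
    (uImp (.la false (iC 1 (.var 0)) false)
      (.any (.const 4) (.la false (iT 2 (.add (.const 4) (.var 0))) true)))))))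
def fL1 : UFm := .all (.var 0)
  (.or (.la false (iL 1 (.var 0)) true) (.la false (iH 1 (.var 0)) true))
def fL2 : UFm := .all (.var 0) (uImp (.la false (iK 1 (.var 0)) true)
  (uImp (.la false (iH 1 (.var 0)) true) (.any (.const 4) (.la false (iT 2 (.var 0)) true))))
def fR1 : UFm := .all (.var 0) (.la false (iL 1 (.var 0)) false)
def fV1 : UFm := .any (.var 0) (.any (.var 1) (.any (.const 12) (.any (.var 3)
  (.and (.la false (.var 3) true) (.and (.la true (.var 2) true)
  (.and (.la false (iT 4 (.var 1)) true) (.and (.la false (iK 4 (.var 0)) true)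
  (.and (.ite (.bit (aT (.var 1) (.var 3) (.var 2))) uTT uFF)
    (.ite (.bit (aT (.const 12) (.var 3) (.var 0))) uTT uFF)))))))))
def fV2 : UFm := .all (.var 0) (uImp (.la false (iK 1 (.var 0)) false)
  (.and (aI (iC 1 (.var 0))) (.and (aI (iL 1 (.var 0))) (aI (iH 1 (.var 0))))))

/-- some of the kinds of transition in the list -/
def oT (d : ℕ) : List ℕ → UFm
  | [] => uFF
  | c :: l => .or (.la false (iT d (.const c)) true) (oT d l)

def fPush (v : Bool) : UFm :=
  .and (uImp (.or (.la false (iL 1 (.var 0)) true) (.la false (iH 1 (.var 0)) true))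
    (.la true (iL 1 (.var 0)) true))
  (.and (uImp (.and (.la false (iL 1 (.var 0)) false) (.la false (iH 1 (.var 0)) false))
    (.la true (iL 1 (.var 0)) false))
  (.and (uImp (.la false (iH 1 (.var 0)) true) (.la true (iC 1 (.var 0)) v))
    (uImp (.la false (iH 1 (.var 0)) false) (aI (iC 1 (.var 0))))))

def fPop : UFm :=
  .and (uImp (.la false (iL 1 (.var 0)) false)
    (.and (.la true (iL 1 (.var 0)) false) (.la true (iH 1 (.var 0)) false)))
  (.and (uImp (.la false (iL 1 (.var 0)) true)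
    (.or (.la true (iL 1 (.var 0)) true) (.la true (iH 1 (.var 0)) true)))
    (uImp (.la true (iL 1 (.var 0)) true) (aI (iC 1 (.var 0)))))

def fV3 : UFm := .all (.var 0) (uImp (.la false (iK 1 (.var 0)) true)
  (.and (uImp (oT 1 [0, 4, 8, 3])
    (.and (aI (iC 1 (.var 0))) (.and (aI (iL 1 (.var 0))) (aI (iH 1 (.var 0))))))
  (.and (uImp (oT 1 [1, 5, 9]) (fPush false))
  (.and (uImp (oT 1 [2, 6, 10]) (fPush true))
    (uImp (oT 1 [7, 11]) fPop)))))

/-- position equal to the value of a counter, the environment is `[i, N, N]` -/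
def fPN : UFm := uDig (.add (.var 0) (.const 1)) (.var 1) (.tb (.var 1) (.var 0))

def fI2 : UFm := .all (.var 0) (.all (.var 1)
  (.ite (.lt (.add (.add (.var 1) (.var 0)) (.const 1)) (.var 2)) uTT
  (.ite (.lt (.var 2) (.add (.add (.var 1) (.var 0)) (.const 1))) uTT
  (uImp (uDig (.add (.var 2) (.const 1)) (.var 3) (.tb (.var 2) (.var 0)))
    (.ite (.bit (.var 0)) (.la false (iC 2 (.const 0)) true)
      (.la false (iC 2 (.const 0)) false))))))
def fI3 : UFm := .all (.var 0) (.ite (.lt (.const 1) (.var 0))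
  (.la false (iH 1 (.var 0)) true) uTT)

/-- tests -/
def tT0 : UFm := uDig (.var 0) (.const 0) cF
def tTm : UFm := uDig (.var 0) (.const 0) cT
def tS0 : UFm := uDig (.add (.var 0) (.const 1)) (.var 1) cF
def tSm : UFm := uDig (.add (.var 0) (.const 1)) (.var 1) cT
def tSn : UFm := uDig (.add (.var 0) (.const 1)) (.var 1) (.lt (.var 1) (.add (.var 0) (.const 1)))
def teT : UFm := uEq (.var 0) (.const 0)
def teS : UFm := uEq (.add (.var 0) (.const 1)) (.var 1)
def tsT : UFm := uSuc (.var 0) (.const 0) (.var 1) (.const 0)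
def tsS : UFm := uSuc (.add (.var 0) (.const 1)) (.var 1) (.add (.var 1) (.const 1)) (.var 2)

/-- the formula; the environment is `[N, N]` -/
def fBody : UFm :=
  .and fU1 (.and fU1' (.and fU2 (.and fU2' (.and fU3 (.and fU3' (.and fU4
  (.and (uImp (.and teT tsS) fH1) (.and (uImp (.and teT tsS) fH2) (.and (uImp (.and teT tsS) fH3)
  (.and (uImp tS0 fL1) (.and (uImp tS0 fL2) (.and (uImp tSm fR1)
  (.and (uImp (.and tsT teS) fV1) (.and (uImp (.and tsT teS) fV2) (.and (uImp (.and tsT teS) fV3)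
  (.and (uImp tT0 (.la false (.const 0) true))
  (.and (uImp (.and tT0 fPN) (.la false (iH 0 (.const 0)) true))
  (.and (uImp tT0 fI2) (.and (uImp (.and tT0 tS0) fI3)
  (.and (uImp (.and tT0 tSn) (.la false (iL 0 (.const 1)) false))
    (uImp tTm (.la false (.const 1) true))))))))))))))))))))))

/-! ### Semantics -/

section

variable (w : Word) (L K : ℕ) (x0 : Fin 0 → Bool) (b : Bool → Fin (L + 2) → Bool)
  (a : Bool → Fin (K + 1) → Bool) (N : ℕ)

lemma ev_la (t : Bool) (j : Bd) (v : Bool) (p : List ℕ) :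
    evU w L K (Vr.ev x0 b a) (.la t j v) p ↔ fb a t (j.ev p) = v := Iff.rfl

lemma ev_TT (p : List ℕ) : evU w L K (Vr.ev x0 b a) uTT p ↔ True := by
  unfold uTT
  rw [evU_or, evU_lb, evU_lb]
  cases (Vr.ev x0 b a (.b false (clamp (L + 1) ((Bd.const 0).ev p)))) <;> simp

lemma ev_FF (p : List ℕ) : evU w L K (Vr.ev x0 b a) uFF p ↔ False := by
  unfold uFF
  rw [evU_and, evU_lb, evU_lb]
  cases (Vr.ev x0 b a (.b false (clamp (L + 1) ((Bd.const 0).ev p)))) <;> simp

lemma ev_aI (j : Bd) (p : List ℕ) : evU w L K (Vr.ev x0 b a) (aI j) p ↔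
    fb a false (j.ev p) = fb a true (j.ev p) := by
  unfold aI
  rw [evU_or, evU_and, evU_and, ev_la, ev_la, ev_la, ev_la]
  cases fb a false (j.ev p) <;> cases fb a true (j.ev p) <;> simp

lemma ev_U1 : evU w L K (Vr.ev x0 b a) fU1 [N, N] ↔ ∃ q < N, fb a false q = true := by
  simp only [fU1, evU_any, ev_la, Bd.ev, List.getD_cons_zero]

lemma ev_U1' : evU w L K (Vr.ev x0 b a) fU1' [N, N] ↔ ∀ q < N, ∀ q' < N, q < q' →
    ¬ (fb a false q = true ∧ fb a false q' = true) := by
  simp only [fU1', evU_all, evU_ite, evU_neg, evU_and, ev_la, ev_TT, Bd.ev, Cnd.ev,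
    List.getD_cons_zero, List.getD_cons_succ, decide_eq_true_eq]
  refine forall₂_congr fun q _ => forall₂_congr fun q' _ => ?_
  split_ifs with h
  · simp [h]
  · simp [h]

lemma ev_U2 : evU w L K (Vr.ev x0 b a) fU2 [N, N] ↔ ∃ k < N, kp N (fb a false) k = true := by
  simp only [fU2, evU_any, ev_la, Bd.ev, List.getD_cons_zero, List.getD_cons_succ, iK, kp]

lemma ev_U2' : evU w L K (Vr.ev x0 b a) fU2' [N, N] ↔ ∀ q < N, ∀ q' < N, q < q' →
    ¬ (kp N (fb a false) q = true ∧ kp N (fb a false) q' = true) := by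
  simp only [fU2', evU_all, evU_ite, evU_neg, evU_and, ev_la, ev_TT, Bd.ev, Cnd.ev,
    List.getD_cons_zero, List.getD_cons_succ, decide_eq_true_eq, iK, kp]
  refine forall₂_congr fun q _ => forall₂_congr fun q' _ => ?_
  split_ifs with h
  · simp [h]
  · simp [h]

lemma ev_U3 : evU w L K (Vr.ev x0 b a) fU3 [N, N] ↔ ∃ c < 12, th N (fb a false) c = true := by
  simp only [fU3, evU_any, ev_la, Bd.ev, List.getD_cons_zero, List.getD_cons_succ, iT, th]

lemma ev_U3' : evU w L K (Vr.ev x0 b a) fU3' [N, N] ↔ ∀ c < 12, ∀ c' < 12, c < c' →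
    ¬ (th N (fb a false) c = true ∧ th N (fb a false) c' = true) := by
  simp only [fU3', evU_all, evU_ite, evU_neg, evU_and, ev_la, ev_TT, Bd.ev, Cnd.ev,
    List.getD_cons_zero, List.getD_cons_succ, decide_eq_true_eq, iT, th]
  refine forall₂_congr fun q _ => forall₂_congr fun q' _ => ?_
  split_ifs with h
  · simp [h]
  · simp [h]

lemma ev_U4 : evU w L K (Vr.ev x0 b a) fU4 [N, N] ↔ ∀ k < N,
    ¬ (ml N (fb a false) k = true ∧ mh N (fb a false) k = true) := by
  simp only [fU4, evU_all, evU_neg, evU_and, ev_la, Bd.ev, List.getD_cons_zero,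
    List.getD_cons_succ, iL, iH, ml, mh]

lemma ev_H1 : evU w L K (Vr.ev x0 b a) fH1 [N, N] ↔ ∀ i < 2 * N + 12,
    fb a false i = fb a true i := by
  simp only [fH1, evU_all, ev_aI, Bd.ev, List.getD_cons_zero]

lemma ev_H2 : evU w L K (Vr.ev x0 b a) fH2 [N, N] ↔ ∀ k < N,
    (ml N (fb a false) k = true ∧ ml N (fb a true) k = true) ∨
    (ml N (fb a false) k = true ∧ mh N (fb a true) k = true) ∨
    (mh N (fb a false) k = true ∧ ml N (fb a true) k = false ∧ mh N (fb a true) k = false) ∨
    ((ml N (fb a false) k = false ∧ mh N (fb a false) k = false) ∧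
      ml N (fb a true) k = false ∧ mh N (fb a true) k = false) := by
  simp only [fH2, evU_all, evU_or, evU_and, ev_la, Bd.ev, List.getD_cons_zero,
    List.getD_cons_succ, iL, iH, ml, mh]

lemma ev_H3 : evU w L K (Vr.ev x0 b a) fH3 [N, N] ↔ ∀ k < N, kp N (fb a false) k = true →
    ml N (fb a false) k = true → mh N (fb a true) k = true →
    (ct N (fb a false) k = true → ∃ o < 4, th N (fb a false) (8 + o) = true) ∧
    (ct N (fb a false) k = false → ∃ o < 4, th N (fb a false) (4 + o) = true) := by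
  simp only [fH3, evU_all, evU_any, evU_imp, evU_and, ev_la, Bd.ev, List.getD_cons_zero,
    List.getD_cons_succ, iK, iL, iH, iC, iT, kp, ml, mh, ct, th]

lemma ev_L1 : evU w L K (Vr.ev x0 b a) fL1 [N, N] ↔ ∀ k < N,
    ml N (fb a false) k = true ∨ mh N (fb a false) k = true := by
  simp only [fL1, evU_all, evU_or, ev_la, Bd.ev, List.getD_cons_zero,
    List.getD_cons_succ, iL, iH, ml, mh]

lemma ev_L2 : evU w L K (Vr.ev x0 b a) fL2 [N, N] ↔ ∀ k < N, kp N (fb a false) k = true →
    mh N (fb a false) k = true → ∃ o < 4, th N (fb a false) o = true := by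
  simp only [fL2, evU_all, evU_any, evU_imp, ev_la, Bd.ev, List.getD_cons_zero,
    List.getD_cons_succ, iK, iH, iT, kp, mh, th]

lemma ev_R1 : evU w L K (Vr.ev x0 b a) fR1 [N, N] ↔ ∀ k < N, ml N (fb a false) k = false := by
  simp only [fR1, evU_all, ev_la, Bd.ev, List.getD_cons_zero, List.getD_cons_succ, iL, ml]

lemma ev_bit (c q x : Bd) (p : List ℕ) :
    evU w L K (Vr.ev x0 b a) (.ite (.bit (aT c q x)) uTT uFF) p ↔
      tab w (c.ev p) (q.ev p) (x.ev p) = true := by
  rw [evU_ite, ev_TT, ev_FF]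
  simp only [Cnd.ev, Bd.ev, aT, tab, adr]
  split_ifs with h
  · exact ⟨fun _ => h, fun _ => trivial⟩
  · exact ⟨False.elim, fun h1 => h h1⟩

lemma ev_V1 : evU w L K (Vr.ev x0 b a) fV1 [N, N] ↔ ∃ q < N, ∃ q' < N, ∃ c < 12, ∃ k < N,
    fb a false q = true ∧ fb a true q' = true ∧ th N (fb a false) c = true ∧
      kp N (fb a false) k = true ∧ tab w c q q' = true ∧ tab w 12 q k = true := by
  simp only [fV1, evU_any, evU_and, ev_la, ev_bit, Bd.ev, List.getD_cons_zero,
    List.getD_cons_succ, iK, iT, kp, th]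

lemma ev_V2 : evU w L K (Vr.ev x0 b a) fV2 [N, N] ↔ ∀ k < N, kp N (fb a false) k = false →
    ct N (fb a true) k = ct N (fb a false) k ∧ ml N (fb a true) k = ml N (fb a false) k ∧
      mh N (fb a true) k = mh N (fb a false) k := by
  simp only [fV2, evU_all, evU_imp, evU_and, ev_la, ev_aI, Bd.ev, List.getD_cons_zero,
    List.getD_cons_succ, iK, iL, iH, iC, kp, ml, mh, ct]
  refine forall₂_congr fun k _ => imp_congr_right fun _ => ?_
  exact and_congr eq_comm (and_congr eq_comm eq_comm)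

lemma ev_oT (d : ℕ) (p : List ℕ) : ∀ l : List ℕ, evU w L K (Vr.ev x0 b a) (oT d l) p ↔
    ∃ c ∈ l, th (p.getD d 0) (fb a false) c = true
  | [] => by simp only [oT, ev_FF, List.not_mem_nil, false_and, exists_false]
  | c :: l => by
    simp only [oT, evU_or, ev_la, ev_oT d p l, iT, Bd.ev, th, List.mem_cons, exists_eq_or_imp]

lemma ev_push (v : Bool) (k : ℕ) : evU w L K (Vr.ev x0 b a) (fPush v) [k, N, N] ↔
    ((ml N (fb a false) k = true ∨ mh N (fb a false) k = true → ml N (fb a true) k = true) ∧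
    (ml N (fb a false) k = false ∧ mh N (fb a false) k = false → ml N (fb a true) k = false) ∧
    (mh N (fb a false) k = true → ct N (fb a true) k = v) ∧
    (mh N (fb a false) k = false → ct N (fb a true) k = ct N (fb a false) k)) := by
  simp only [fPush, evU_imp, evU_and, evU_or, ev_la, ev_aI, Bd.ev, List.getD_cons_zero,
    List.getD_cons_succ, iL, iH, iC, ml, mh, ct]
  refine and_congr Iff.rfl (and_congr Iff.rfl (and_congr Iff.rfl (imp_congr_right fun _ => ?_)))
  exact eq_comm

lemma ev_pop (k : ℕ) : evU w L K (Vr.ev x0 b a) fPop [k, N, N] ↔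
    ((ml N (fb a false) k = false → ml N (fb a true) k = false ∧ mh N (fb a true) k = false) ∧
    (ml N (fb a false) k = true → ml N (fb a true) k = true ∨ mh N (fb a true) k = true) ∧
    (ml N (fb a true) k = true → ct N (fb a true) k = ct N (fb a false) k)) := by
  simp only [fPop, evU_imp, evU_and, evU_or, ev_la, ev_aI, Bd.ev, List.getD_cons_zero,
    List.getD_cons_succ, iL, iH, iC, ml, mh, ct]
  refine and_congr Iff.rfl (and_congr Iff.rfl (imp_congr_right fun _ => ?_))
  exact eq_comm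

lemma ev_V3 : evU w L K (Vr.ev x0 b a) fV3 [N, N] ↔ ∀ k < N, kp N (fb a false) k = true →
    ∀ c < 12, th N (fb a false) c = true →
      chg c (ct N (fb a false) k) (ml N (fb a false) k) (mh N (fb a false) k)
        (ct N (fb a true) k) (ml N (fb a true) k) (mh N (fb a true) k) := by
  unfold fV3
  rw [evU_all]
  simp only [Bd.ev, List.getD_cons_zero]
  refine forall₂_congr fun k hk => ?_
  rw [evU_imp]
  have hkp : evU w L K (Vr.ev x0 b a) (.la false (iK 1 (.var 0)) true) [k, N, N] ↔
      kp N (fb a false) k = true := by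
    simp only [ev_la, Bd.ev, List.getD_cons_zero, List.getD_cons_succ, iK, kp]
  rw [hkp]
  refine imp_congr_right fun _ => ?_
  simp only [evU_and, evU_imp, ev_oT, ev_push, ev_pop, ev_aI]
  simp only [Bd.ev, List.getD_cons_zero, List.getD_cons_succ, iL, iH, iC]
  unfold chg
  constructor
  · rintro ⟨h1, h2, h3, h4⟩ c hc hth
    refine ⟨fun h => ?_, fun h => ?_, fun h => ?_, fun h => ?_⟩
    · have := h1 ⟨c, by simp only [List.mem_cons, List.not_mem_nil, or_false]; exact h, hth⟩
      exact ⟨this.1.symm, this.2.1.symm, this.2.2.symm⟩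
    · exact h2 ⟨c, by simp only [List.mem_cons, List.not_mem_nil, or_false]; exact h, hth⟩
    · exact h3 ⟨c, by simp only [List.mem_cons, List.not_mem_nil, or_false]; exact h, hth⟩
    · exact h4 ⟨c, by simp only [List.mem_cons, List.not_mem_nil, or_false]; exact h, hth⟩
  · intro h
    refine ⟨?_, ?_, ?_, ?_⟩
    · rintro ⟨c, hc, hth⟩
      simp only [List.mem_cons, List.not_mem_nil, or_false] at hc
      have := (h c (by omega) hth).1 hc
      exact ⟨this.1.symm, this.2.1.symm, this.2.2.symm⟩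
    · rintro ⟨c, hc, hth⟩
      simp only [List.mem_cons, List.not_mem_nil, or_false] at hc
      exact (h c (by omega) hth).2.1 hc
    · rintro ⟨c, hc, hth⟩
      simp only [List.mem_cons, List.not_mem_nil, or_false] at hc
      exact (h c (by omega) hth).2.2.1 hc
    · rintro ⟨c, hc, hth⟩
      simp only [List.mem_cons, List.not_mem_nil, or_false] at hc
      exact (h c (by omega) hth).2.2.2 hc

lemma ev_PN : evU w L K (Vr.ev x0 b a) fPN [N, N] ↔ sU L N (b false) = N := by
  refine evU_dig w L K _ _ _ _ _ N N (fun _ => rfl) ?_ ?_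
  · simp only [Bd.ev, List.getD_cons_zero]
    exact Nat.lt_two_pow_self.trans_le (Nat.pow_le_pow_right (by norm_num) (by omega))
  · intro i hi
    simp only [Cnd.ev, Bd.ev, List.getD_cons_zero, List.getD_cons_succ]

lemma ev_I2 : evU w L K (Vr.ev x0 b a) fI2 [N, N] ↔ ∀ i < N, ∀ j < N, i + j + 1 = N →
    sU L N (b false) = i → ct N (fb a false) 0 = w.getD j false := by
  unfold fI2
  rw [evU_all]
  simp only [Bd.ev, List.getD_cons_zero]
  refine forall₂_congr fun i hi => ?_
  rw [evU_all]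
  simp only [Bd.ev, List.getD_cons_zero, List.getD_cons_succ]
  refine forall₂_congr fun j hj => ?_
  rw [evU_ite, evU_ite, evU_imp, evU_ite, ev_TT, ev_la, ev_la]
  have hd : evU w L K (Vr.ev x0 b a) (uDig (.add (.var 2) (.const 1)) (.var 3)
      (.tb (.var 2) (.var 0))) [j, i, N, N] ↔ sU L N (b false) = i := by
    refine evU_dig w L K _ _ _ _ _ N i (fun _ => rfl) ?_ ?_
    · simp only [Bd.ev, List.getD_cons_zero, List.getD_cons_succ]
      exact hi.trans (Nat.lt_two_pow_self.trans_le (Nat.pow_le_pow_right (by norm_num) (by omega)))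
    · intro t ht
      simp only [Cnd.ev, Bd.ev, List.getD_cons_zero, List.getD_cons_succ]
  rw [hd]
  simp only [Cnd.ev, Bd.ev, List.getD_cons_zero, List.getD_cons_succ, decide_eq_true_eq, iC]
  have hc : (2 * N + 12 + 3 * 0) = 2 * N + 12 + 3 * 0 := rfl
  rcases lt_trichotomy (i + j + 1) N with h | h | h
  · rw [if_pos h]
    exact ⟨fun _ h1 => absurd h1 (by omega), fun _ => trivial⟩
  · rw [if_neg (by omega), if_neg (by omega)]
    constructor
    · intro h1 _ h2
      have h3 := h1 h2
      unfold ct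
      cases hb : w.getD j false
      · rw [hb] at h3; simpa using h3
      · rw [hb] at h3; simpa using h3
    · intro h1 h2
      have h3 := h1 h h2
      unfold ct at h3
      cases hb : w.getD j false
      · rw [hb] at h3; simpa using h3
      · rw [hb] at h3; simpa using h3
  · rw [if_neg (by omega), if_pos h]
    exact ⟨fun _ h1 => absurd h1 (by omega), fun _ => trivial⟩

lemma ev_I3 : evU w L K (Vr.ev x0 b a) fI3 [N, N] ↔ ∀ k < N, 2 ≤ k →
    mh N (fb a false) k = true := by
  simp only [fI3, evU_all, evU_ite, ev_la, ev_TT, Bd.ev, Cnd.ev, List.getD_cons_zero,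
    List.getD_cons_succ, decide_eq_true_eq, iH, mh]
  refine forall₂_congr fun k _ => ?_
  split_ifs with h
  · exact ⟨fun h1 _ => h1, fun h1 => h1 (by omega)⟩
  · exact ⟨fun _ h1 => absurd h1 (by omega), fun _ => trivial⟩

lemma ev_T0 : evU w L K (Vr.ev x0 b a) tT0 [N, N] ↔ tU L N (b false) = 0 :=
  evU_T0 w L K _ N N
lemma ev_Tm : evU w L K (Vr.ev x0 b a) tTm [N, N] ↔ tU L N (b false) = 2 ^ N - 1 :=
  evU_Tm w L K _ N N
lemma ev_S0 : evU w L K (Vr.ev x0 b a) tS0 [N, N] ↔ sU L N (b false) = 0 :=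
  evU_S0 w L K _ N N
lemma ev_Sm : evU w L K (Vr.ev x0 b a) tSm [N, N] ↔ sU L N (b false) = 2 ^ (N + 1) - 1 :=
  evU_Sm w L K _ N N
lemma ev_Sn : evU w L K (Vr.ev x0 b a) tSn [N, N] ↔ sU L N (b false) = 2 ^ N :=
  evU_Sn w L K _ N N
lemma ev_eT : evU w L K (Vr.ev x0 b a) teT [N, N] ↔ tU L N (b false) = tU L N (b true) :=
  evU_eqT w L K _ N N
lemma ev_eS : evU w L K (Vr.ev x0 b a) teS [N, N] ↔ sU L N (b false) = sU L N (b true) :=
  evU_eqS w L K _ N N
lemma ev_sT : evU w L K (Vr.ev x0 b a) tsT [N, N] ↔ tU L N (b true) = tU L N (b false) + 1 :=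
  evU_sucT w L K _ N N
lemma ev_sS : evU w L K (Vr.ev x0 b a) tsS [N, N] ↔ sU L N (b true) = sU L N (b false) + 1 :=
  evU_sucS w L K _ N N

lemma ev_body : evU w L K (Vr.ev x0 b a) fBody [w.length, w.length] ↔
    SemB w (tU L w.length (b false)) (sU L w.length (b false)) (tU L w.length (b true))
      (sU L w.length (b true)) (fb a false) (fb a true) := by
  unfold fBody
  simp only [evU_and, evU_imp, ev_U1, ev_U1', ev_U2, ev_U2', ev_U3, ev_U3', ev_U4, ev_H1, ev_H2,
    ev_H3, ev_L1, ev_L2, ev_R1, ev_V1, ev_V2, ev_V3, ev_PN, ev_I2, ev_I3, ev_T0, ev_Tm, ev_S0,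
    ev_Sm, ev_Sn, ev_eT, ev_eS, ev_sT, ev_sS, ev_la]
  constructor
  · rintro ⟨u1, u1', u2, u2', u3, u3', u4, h1, h2, h3, l1, l2, r1, v1, v2, v3, i0, i1, i2, i3,
      i4, f1⟩
    exact ⟨u1, u1', u2, u2', u3, u3', u4, fun p q => h1 ⟨p.symm, q⟩, fun p q => h2 ⟨p.symm, q⟩,
      fun p q => h3 ⟨p.symm, q⟩, l1, l2, r1, fun p q => v1 ⟨p, q.symm⟩, fun p q => v2 ⟨p, q.symm⟩,
      fun p q => v3 ⟨p, q.symm⟩, i0, fun p q => i1 ⟨p, q⟩,
      fun p i hi j hj hij hs => i2 p i hi j hj hij hs, fun p q => i3 ⟨p, q⟩,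
      fun p q => i4 ⟨p, q⟩, f1⟩
  · intro h
    exact ⟨h.u1, h.u1', h.u2, h.u2', h.u3, h.u3', h.u4, fun p => h.h1 p.1.symm p.2,
      fun p => h.h2 p.1.symm p.2, fun p => h.h3 p.1.symm p.2, h.l1, h.l2, h.r1,
      fun p => h.v1 p.1 p.2.symm, fun p => h.v2 p.1 p.2.symm, fun p => h.v3 p.1 p.2.symm, h.i0,
      fun p => h.i1 p.1 p.2, fun p i hi j hj hij hs => h.i2 p i hi j hj hij hs,
      fun p => h.i3 p.1 p.2, fun p => h.i4 p.1 p.2, h.f1⟩

end

/-- the uniform formula of the diagonal language -/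
def fDiag : UFm := .bind (.var 0) fBody

/-- `2 N` -/
def bdL : Bd := .mul (.const 2) (.var 0)

/-- `5 N + 12` -/
def bdK : Bd := .add (.mul (.const 5) (.var 0)) (.const 12)

/-- module (a): the diagonal language as one uniform oracle problem -/
theorem diag_orc {w : Word} (hw : 2 ≤ w.length) :
    Orc (fDiag.fm w (bdL.ev [w.length]) (bdK.ev [w.length]) [w.length])
      (Fin.elim0 : Fin 0 → Bool) ↔ w ∈ Lg := by
  set N := w.length with hN
  have hL : bdL.ev [N] = 2 * N := rfl
  have hK : bdK.ev [N] = 5 * N + 12 := rfl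
  rw [hL, hK]
  have key : ∀ (b : Bool → Fin (2 * N + 2) → Bool) (a : Bool → Fin (5 * N + 12 + 1) → Bool),
      evB (Vr.ev (Fin.elim0 : Fin 0 → Bool) b a) (fDiag.fm w (2 * N) (5 * N + 12) [N]) ↔
      SemB w (tU (2 * N) N (b false)) (sU (2 * N) N (b false)) (tU (2 * N) N (b true))
        (sU (2 * N) N (b true)) (fb a false) (fb a true) := fun b a =>
    ev_body w (2 * N) (5 * N + 12) _ b a
  have ht : ∀ u : Fin (2 * N + 2) → Bool, tU (2 * N) N u < 2 ^ N := fun u => bvN_lt _ _
  have hs : ∀ u : Fin (2 * N + 2) → Bool, sU (2 * N) N u < 2 ^ (N + 1) := fun u => bvN_lt _ _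
  constructor
  · rintro ⟨A, hA⟩
    have hsur := names_sur N (2 * N) le_rfl
    choose! nm hnt hns using hsur
    refine tb_sound hw (g := fun T S i => A (nm T S) (clamp (5 * N + 12) i)) ?_
    intro T hT S hS T' hT' S' hS'
    have h1 := (key (fun t => cond t (nm T' S') (nm T S))
      (fun t => A (cond t (nm T' S') (nm T S)))).1 (hA _)
    simp only [cond_true, cond_false] at h1
    rw [hnt T hT S hS, hns T hT S hS, hnt T' hT' S' hS', hns T' hT' S' hS'] at h1
    exact h1
  · intro h
    obtain ⟨g, hg, hg2⟩ := tb_complete hw h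
    refine ⟨fun u i => g (tU (2 * N) N u) (sU (2 * N) N u) i, fun b => ?_⟩
    refine (key b _).2 ?_
    have hfb : ∀ t, (fb (K := 5 * N + 12) (fun t (i : Fin (5 * N + 12 + 1)) =>
        g (tU (2 * N) N (b t)) (sU (2 * N) N (b t)) i) t) =
        g (tU (2 * N) N (b t)) (sU (2 * N) N (b t)) := by
      intro t
      funext i
      simp only [fb]
      rcases Nat.lt_or_ge i (5 * N + 12 + 1) with hi | hi
      · have : (clamp (5 * N + 12) i : ℕ) = i := by
          unfold clamp; rw [dif_pos hi]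
        rw [this]
      · have : (clamp (5 * N + 12) i : ℕ) = 0 := by
          unfold clamp; rw [dif_neg (by omega)]; rfl
        rw [this, hg2 _ _ i hi]
    rw [hfb false, hfb true]
    exact hg _ (ht _) _ (hs _) _ (ht _) _ (hs _)

end Vale.Agent.P027.N.D
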