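import Vale.Agent.Lib.PolyTime.Defs

set_option linter.all false

/-! Stack machines coded by words: the word `w` is the table of the machine. The states and the
stacks are numbered by natural numbers less than the length of `w`. -/

namespace Vale.Agent.P027.N.D

open Vale.Agent.Lib.PolyTime

/-- address of the entry `(c, q, x)` of the table, `c < 16` -/
def adr (c q x : ℕ) : ℕ := (q + (16 * x + c)) * (q + (16 * x + c)) + q

/-- the entry `(c, q, x)` of the table `w`. Field `c = 12`: in the state `q` the machine looks at the
stack `x`. Field `c = 4 * τ + o`, `τ < 3`, `o < 4`: in the state `q`, if the top of that stack is `τ`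
(0: the stack is empty, 1: the top is `false`, 2: the top is `true`), the machine may do the
operation `o` on that stack and go to the state `x`. -/
def tab (w : Word) (c q x : ℕ) : Bool := w.getD (adr c q x) false

/-- code of the top of a stack -/
def topc : Word → ℕ
  | [] => 0
  | false :: _ => 1
  | true :: _ => 2

/-- operations: 0 nothing, 1 push `false`, 2 push `true`, 3 pop -/
def opr (o : ℕ) (s : Word) : Word :=
  if o = 1 then false :: s else if o = 2 then true :: s else if o = 3 then s.tail else s

/-- one step of the machine `w`; a configuration is a state and the contents of the stacks -/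
def StW (w : Word) (c c' : ℕ × (ℕ → Word)) : Prop :=
  ∃ k o, o < 4 ∧ tab w 12 c.1 k = true ∧ tab w (4 * topc (c.2 k) + o) c.1 c'.1 = true ∧
    c'.2 = Function.update c.2 k (opr o (c.2 k))

/-- the machine `w`, started in the state `0` with memory `s`, can be in the state `1` after
exactly `t` steps -/
def AccW (w : Word) (s : ℕ → Word) (t : ℕ) : Prop :=
  ∃ g : ℕ → ℕ × (ℕ → Word), g 0 = (0, s) ∧ (∀ i < t, StW w (g i) (g (i + 1))) ∧ (g t).1 = 1

/-- the diagonal language: the machine `w` accepts the input `w` with some certificate `r` -/
def Lg : Set Word :=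
  {w | ∃ r : Word, r.length ≤ 2 ^ w.length ∧ AccW w (start w r) (2 ^ w.length - 1)}

/-- module (b): every program is given by a table of any sufficiently large length -/
def StComp : Prop := ∀ p : Prog, ∃ N₀ : ℕ, ∀ N ≥ N₀, ∃ w : Word, w.length = N ∧
  ∀ (s s' : ℕ → Word) (t m : ℕ), Eval ∅ p s t s' → 2 * t + 1 ≤ m →
    (AccW w s m ↔ (s' 0).head? = some true)

/-- verifiers of a language: `p` halts within `T (|x|)` steps on `(x, r)` for every certificate
`r`; only members of the language have accepted certificates, and every member has a short one -/
def Verif (p : Prog) (T : Polynomial ℕ) (L : Set Word) : Prop :=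
  (∀ x r, HaltsWithin ∅ p x r (T.eval x.length)) ∧
  (∀ x r, Accepts ∅ p x r → x ∈ L) ∧
  ∀ x ∈ L, ∃ r : Word, r.length ≤ T.eval x.length ∧ Accepts ∅ p x r

/-- module (c): a verifier for the inverse image of a language under a function computable in
polynomial time -/
def StVer : Prop := ∀ (f : Word → Word) (p : Prog) (T : Polynomial ℕ) (L : Set Word),
  PolyTimeFun ∅ f → Verif p T L → ∃ (p' : Prog) (T' : Polynomial ℕ), Verif p' T' (f ⁻¹' L)

end Vale.Agent.P027.N.D
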