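import Vale.Agent.P027.H833.D.Fml
import Vale.Agent.P027.H833.Main
import Vale.Agent.P027.H847.D.Diag
import Vale.Agent.P027.H847.U.PolyPT
import Vale.Agent.P027.N.U.Code

set_option linter.all false

/-! The reduction of the diagonal language to polynomials over the rationals. -/

namespace Vale.Agent.P027.N

open Vale.Agent.P027 Vale.Agent.P027.Q

/-- every family of oracle problems given by a uniform formula is a family of systems given by a
uniform generator -/
theorem stGenF : U.StGen2 :=
  U.stGen2 (step_sound (stAnd law)) step_complete B7.stBasSound B7.stBasExists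
    (B7.stBasCell (stParity law)) B7.stBasHon

namespace D

open Vale.Agent.Lib.PolyTime Vale.Agent.P027.N.U

theorem red_of_orc (F : UFm) (Lb Kb : Bd) (L : Set Word)
    (h : ∀ w : Word, Orc (F.fm w (Lb.ev [w.length]) (Kb.ev [w.length]) [w.length]) Fin.elim0 ↔
      w ∈ L) : Red L := by
  obtain ⟨g, hg⟩ := stGenF F Lb Kb
  refine ⟨g.poly, g.fpP, g.poly_degree, fun w => ?_⟩
  rw [← h w, ← hg w]
  exact (g.poly_zero w).symm

/-- the machines coded by very short words do nothing -/
theorem not_Lg_short {w : Word} (hw : w.length < 2) : w ∉ Lg := by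
  rintro ⟨r, -, g, h0, hs, ha⟩
  rcases Nat.eq_zero_or_pos (2 ^ w.length - 1) with h | h
  · rw [h, h0] at ha
    simp at ha
  · obtain ⟨k, o, -, h1, -⟩ := hs 0 h
    rw [h0] at h1
    unfold tab adr at h1
    rw [List.getD_eq_default _ _ (by nlinarith)] at h1
    simp at h1

theorem redLg : Red Lg := by
  refine red_of_orc (.ite (.lt (.const 1) (.var 0)) fDiag uFF) bdL bdK Lg fun w => ?_
  by_cases hw : 2 ≤ w.length
  · have h : (UFm.ite (.lt (.const 1) (.var 0)) fDiag uFF).fm w (bdL.ev [w.length])
        (bdK.ev [w.length]) [w.length] = fDiag.fm w (bdL.ev [w.length]) (bdK.ev [w.length])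
        [w.length] := by
      simp only [UFm.fm, Cnd.ev, Bd.ev, List.getD_cons_zero, decide_eq_true_eq]
      rw [if_pos (by omega)]
    rw [h]
    exact diag_orc hw
  · have h : (UFm.ite (.lt (.const 1) (.var 0)) fDiag uFF).fm w (bdL.ev [w.length])
        (bdK.ev [w.length]) [w.length] = uFF.fm w (bdL.ev [w.length]) (bdK.ev [w.length])
        [w.length] := by
      simp only [UFm.fm, Cnd.ev, Bd.ev, List.getD_cons_zero, decide_eq_true_eq]
      rw [if_neg (by omega)]
    rw [h]
    refine iff_of_false ?_ (not_Lg_short (by omega))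
    rintro ⟨A, hA⟩
    have h1 := hA (fun _ _ => false)
    exact (ev_FF w _ _ _ _ _ _).1 h1

end D

end Vale.Agent.P027.N
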