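import Vale.Agent.P027.H833.D.Mach
import Vale.Agent.P027.H833.Ntm

set_option linter.all false

/-! Tableaux of the machines coded by words. -/

namespace Vale.Agent.P027.N.D

open Vale.Agent.Lib.PolyTime

/-! Contents of a cell of the tableau are bits: `f q`, `q < N`: the state is `q`; `f (N + k)`,
`k < N`: the stack used is `k`; `f (2 * N + c)`, `c < 12`: the transition is of kind `c`; then three
bits for every stack `k`: the content at this height, `below the top`, `at the top`. -/

def kp (N : ℕ) (f : ℕ → Bool) (k : ℕ) : Bool := f (N + k)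
def th (N : ℕ) (f : ℕ → Bool) (c : ℕ) : Bool := f (2 * N + c)
def ct (N : ℕ) (f : ℕ → Bool) (k : ℕ) : Bool := f (2 * N + 12 + 3 * k)
def ml (N : ℕ) (f : ℕ → Bool) (k : ℕ) : Bool := f (2 * N + 13 + 3 * k)
def mh (N : ℕ) (f : ℕ → Bool) (k : ℕ) : Bool := f (2 * N + 14 + 3 * k)

/-- what happens to the stack used, transition of kind `c`; `a, l, h` (content, below, at) become
`a', l', h'` -/
def chg (c : ℕ) (a l h a' l' h' : Bool) : Prop :=
  (c = 0 ∨ c = 4 ∨ c = 8 ∨ c = 3 → a' = a ∧ l' = l ∧ h' = h) ∧
  (c = 1 ∨ c = 5 ∨ c = 9 → (l = true ∨ h = true → l' = true) ∧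
    (l = false ∧ h = false → l' = false) ∧ (h = true → a' = false) ∧ (h = false → a' = a)) ∧
  (c = 2 ∨ c = 6 ∨ c = 10 → (l = true ∨ h = true → l' = true) ∧
    (l = false ∧ h = false → l' = false) ∧ (h = true → a' = true) ∧ (h = false → a' = a)) ∧
  (c = 7 ∨ c = 11 → (l = false → l' = false ∧ h' = false) ∧
    (l = true → l' = true ∨ h' = true) ∧ (l' = true → a' = a))

/-- constraints for the cells `(T, S)`, `(T', S')` with contents `f`, `f'` -/
structure SemB (w : Word) (T S T' S' : ℕ) (f f' : ℕ → Bool) : Prop where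
  u1 : ∃ q < w.length, f q = true
  u1' : ∀ q < w.length, ∀ q' < w.length, q < q' → ¬ (f q = true ∧ f q' = true)
  u2 : ∃ k < w.length, kp w.length f k = true
  u2' : ∀ k < w.length, ∀ k' < w.length, k < k' →
    ¬ (kp w.length f k = true ∧ kp w.length f k' = true)
  u3 : ∃ c < 12, th w.length f c = true
  u3' : ∀ c < 12, ∀ c' < 12, c < c' → ¬ (th w.length f c = true ∧ th w.length f c' = true)
  u4 : ∀ k < w.length, ¬ (ml w.length f k = true ∧ mh w.length f k = true)
  h1 : T' = T → S' = S + 1 → ∀ i < 2 * w.length + 12, f i = f' i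
  h2 : T' = T → S' = S + 1 → ∀ k < w.length,
    (ml w.length f k = true ∧ ml w.length f' k = true) ∨
    (ml w.length f k = true ∧ mh w.length f' k = true) ∨
    (mh w.length f k = true ∧ ml w.length f' k = false ∧ mh w.length f' k = false) ∨
    ((ml w.length f k = false ∧ mh w.length f k = false) ∧
      ml w.length f' k = false ∧ mh w.length f' k = false)
  h3 : T' = T → S' = S + 1 → ∀ k < w.length, kp w.length f k = true → ml w.length f k = true →
    mh w.length f' k = true →
    (ct w.length f k = true → ∃ o < 4, th w.length f (8 + o) = true) ∧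
    (ct w.length f k = false → ∃ o < 4, th w.length f (4 + o) = true)
  l1 : S = 0 → ∀ k < w.length, ml w.length f k = true ∨ mh w.length f k = true
  l2 : S = 0 → ∀ k < w.length, kp w.length f k = true → mh w.length f k = true →
    ∃ o < 4, th w.length f o = true
  r1 : S = 2 ^ (w.length + 1) - 1 → ∀ k < w.length, ml w.length f k = false
  v1 : T' = T + 1 → S' = S → ∃ q < w.length, ∃ q' < w.length, ∃ c < 12, ∃ k < w.length,
    f q = true ∧ f' q' = true ∧ th w.length f c = true ∧ kp w.length f k = true ∧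
      tab w c q q' = true ∧ tab w 12 q k = true
  v2 : T' = T + 1 → S' = S → ∀ k < w.length, kp w.length f k = false →
    ct w.length f' k = ct w.length f k ∧ ml w.length f' k = ml w.length f k ∧
      mh w.length f' k = mh w.length f k
  v3 : T' = T + 1 → S' = S → ∀ k < w.length, kp w.length f k = true →
    ∀ c < 12, th w.length f c = true →
      chg c (ct w.length f k) (ml w.length f k) (mh w.length f k)
        (ct w.length f' k) (ml w.length f' k) (mh w.length f' k)
  i0 : T = 0 → f 0 = true
  i1 : T = 0 → S = w.length → mh w.length f 0 = true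
  i2 : T = 0 → ∀ i < w.length, ∀ j < w.length, i + j + 1 = w.length → S = i →
    ct w.length f 0 = w.getD j false
  i3 : T = 0 → S = 0 → ∀ k < w.length, 2 ≤ k → mh w.length f k = true
  i4 : T = 0 → S = 2 ^ w.length → ml w.length f 1 = false
  f1 : T = 2 ^ w.length - 1 → f 1 = true

/-- tableaux -/
def TB (w : Word) (g : ℕ → ℕ → ℕ → Bool) : Prop :=
  ∀ T < 2 ^ w.length, ∀ S < 2 ^ (w.length + 1), ∀ T' < 2 ^ w.length, ∀ S' < 2 ^ (w.length + 1),
    SemB w T S T' S' (g T S) (g T' S')

/-! ### Rows of marks -/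

/-- marks from bits -/
def mkB (l h : Bool) : Mk := if l then .l else if h then .h else .r

lemma mkB_l {l h : Bool} : mkB l h = .l ↔ l = true := by cases l <;> cases h <;> simp [mkB]
lemma mkB_h {l h : Bool} : mkB l h = .h ↔ l = false ∧ h = true := by
  cases l <;> cases h <;> simp [mkB]
lemma mkB_r {l h : Bool} : mkB l h = .r ↔ l = false ∧ h = false := by
  cases l <;> cases h <;> simp [mkB]

/-- a row of marks of height `h` -/
structure Row (W : ℕ) (m : ℕ → Mk) (h : ℕ) : Prop where
  hlt : h < W
  mh : m h = .h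
  ml : ∀ S < h, m S = .l
  mr : ∀ S, h < S → S < W → m S = .r

lemma Row.uniq {W : ℕ} {m : ℕ → Mk} {h h' : ℕ} (a : Row W m h) (b : Row W m h') : h = h' := by
  rcases lt_trichotomy h h' with h1 | h1 | h1
  · have := b.ml _ h1; rw [a.mh] at this; cases this
  · exact h1
  · have := a.ml _ h1; rw [b.mh] at this; cases this

lemma Row.stay {W : ℕ} {m m' : ℕ → Mk} {h h' : ℕ} (a : Row W m h) (b : Row W m' h')
    (e : ∀ S < W, m' S = m S) : h' = h := by
  have : Row W m h' := ⟨b.hlt, by rw [← e h' b.hlt]; exact b.mh,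
    fun S hS => by rw [← e S (by have := b.hlt; omega)]; exact b.ml S hS,
    fun S h1 h2 => by rw [← e S h2]; exact b.mr S h1 h2⟩
  exact this.uniq a

lemma Row.right {W : ℕ} {m m' : ℕ → Mk} {h h' : ℕ} (a : Row W m h) (b : Row W m' h')
    (e : ∀ S < W, (m S ≠ .r → m' S = .l) ∧ (m S = .r → m' S ≠ .l)) : h' = h + 1 := by
  have e3 : m' h = .l := (e h a.hlt).1 (by rw [a.mh]; simp)
  have e4 : h < h' := by
    by_contra h5
    rcases Nat.lt_or_ge h' h with h6 | h6
    · rw [b.mr _ h6 a.hlt] at e3; cases e3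
    · have : h = h' := by omega
      rw [this, b.mh] at e3; cases e3
  by_contra h5
  have h6 : h + 1 < h' := by omega
  have h7 := b.hlt
  have e5 := e (h + 1) (by omega)
  rw [a.mr (h + 1) (by omega) (by omega)] at e5
  exact e5.2 rfl (b.ml _ h6)

lemma Row.left {W : ℕ} {m m' : ℕ → Mk} {h h' : ℕ} (a : Row W m h) (b : Row W m' h')
    (e : ∀ S < W, (m S ≠ .l → m' S = .r) ∧ (m S = .l → m' S ≠ .r)) : h = h' + 1 := by
  have e3 : m' h = .r := (e h a.hlt).1 (by rw [a.mh]; simp)
  have e4 : h' < h := by
    by_contra h5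
    rcases Nat.lt_or_ge h h' with h6 | h6
    · rw [b.ml _ h6] at e3; cases e3
    · have : h = h' := by omega
      rw [this, b.mh] at e3; cases e3
  by_contra h5
  have h6 : h' < h - 1 := by omega
  have h7 := a.hlt
  have e5 := e (h - 1) (by omega)
  rw [a.ml (h - 1) (by omega)] at e5
  exact e5.2 rfl (b.mr _ h6 (by omega))

/-- the stack with the contents `u (h - 1), ..., u 0` -/
def stk : ℕ → (ℕ → Bool) → Word
  | 0, _ => []
  | h + 1, u => u h :: stk h u

lemma stk_length : ∀ (h : ℕ) (u : ℕ → Bool), (stk h u).length = h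
  | 0, _ => rfl
  | h + 1, u => by simp [stk, stk_length h u]

lemma stk_congr {u u' : ℕ → Bool} : ∀ (h : ℕ), (∀ i < h, u i = u' i) → stk h u = stk h u'
  | 0, _ => rfl
  | h + 1, e => by
    rw [stk, stk, e h (Nat.lt_succ_self h), stk_congr h (fun i hi => e i (by omega))]

lemma stk_eq : ∀ (w : Word) (u : ℕ → Bool),
    (∀ i < w.length, ∀ j < w.length, i + j + 1 = w.length → u i = w.getD j false) →
    stk w.length u = w
  | [], _, _ => rfl
  | b :: w, u, h => by
    rw [List.length_cons, stk]
    congr 1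
    · rw [h w.length (by simp) 0 (by simp) (by simp)]; rfl
    · refine stk_eq w u fun i hi j hj hij => ?_
      rw [h i (by simp; omega) (j + 1) (by simp; omega) (by simp; omega)]
      rfl

end Vale.Agent.P027.N.D
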