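import Vale.Agent.P027.H833.D.Tbl

set_option linter.all false

/-! Soundness of the tableaux of coded machines. -/

namespace Vale.Agent.P027.N.D

open Vale.Agent.Lib.PolyTime

lemma stack_step {W h h' c : ℕ} {a l b a' l' b' : ℕ → Bool}
    (r : Row W (fun S => mkB (l S) (b S)) h) (r' : Row W (fun S => mkB (l' S) (b' S)) h')
    (hlb : ∀ S < W, ¬ (l S = true ∧ b S = true)) (hc : c < 12)
    (e : ∀ S < W, chg c (a S) (l S) (b S) (a' S) (l' S) (b' S)) (he : c = 3 → h = 0) :
    stk h' a' = opr (c % 4) (stk h a) := by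
  have hl : ∀ S < h, l S = true := fun S hS => mkB_l.1 (r.ml S hS)
  have hb : ∀ S < h, b S = false := fun S hS => by
    have h1 := hlb S (by have := r.hlt; omega)
    have h2 := hl S hS
    cases h3 : b S
    · rfl
    · exact absurd ⟨h2, h3⟩ h1
  have hbh : b h = true := (mkB_h.1 r.mh).2
  have hl' : ∀ S < h', l' S = true := fun S hS => mkB_l.1 (r'.ml S hS)
  -- the four kinds
  have stay : (c = 0 ∨ c = 4 ∨ c = 8 ∨ c = 3) → stk h' a' = stk h a := by
    intro h0
    have e1 : ∀ S < W, a' S = a S ∧ l' S = l S ∧ b' S = b S := fun S hS => (e S hS).1 h0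
    have e2 : h' = h := r.stay r' (fun S hS => by
      rw [(e1 S hS).2.1, (e1 S hS).2.2])
    rw [e2]
    exact stk_congr h (fun i hi => (e1 i (by have := r.hlt; omega)).1)
  have push : ∀ v : Bool, (∀ S < W, (l S = true ∨ b S = true → l' S = true) ∧
      (l S = false ∧ b S = false → l' S = false) ∧ (b S = true → a' S = v) ∧
      (b S = false → a' S = a S)) → stk h' a' = v :: stk h a := by
    intro v e1
    have e2 : h' = h + 1 := r.right r' (fun S hS => by
      obtain ⟨h1, h2, -, -⟩ := e1 S hS
      constructor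
      · intro h3
        rw [mkB_l]
        apply h1
        rw [Ne, mkB_r] at h3
        cases h4 : l S <;> cases h5 : b S <;> simp_all
      · intro h3
        rw [Ne, mkB_l, h2 (mkB_r.1 h3)]
        simp)
    rw [e2, stk, (e1 h r.hlt).2.2.1 hbh]
    congr 1
    exact stk_congr h (fun i hi => (e1 i (by have := r.hlt; omega)).2.2.2 (hb i hi))
  have pop : (c = 7 ∨ c = 11) → stk h' a' = (stk h a).tail := by
    intro h0
    have e1 : ∀ S < W, (l S = false → l' S = false ∧ b' S = false) ∧
        (l S = true → l' S = true ∨ b' S = true) ∧ (l' S = true → a' S = a S) :=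
      fun S hS => (e S hS).2.2.2 h0
    have e2 : h = h' + 1 := r.left r' (fun S hS => by
      obtain ⟨h1, h2, -⟩ := e1 S hS
      constructor
      · intro h3
        rw [mkB_r]
        apply h1
        rw [Ne, mkB_l] at h3
        simpa using h3
      · intro h3
        rw [Ne, mkB_r]
        have h4 := h2 (mkB_l.1 h3)
        intro h5
        rcases h4 with h4 | h4
        · rw [h5.1] at h4; cases h4
        · rw [h5.2] at h4; cases h4)
    rw [e2, stk, List.tail_cons]
    exact stk_congr h' (fun i hi => (e1 i (by have := r'.hlt; omega)).2.2 (hl' i hi))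
  have hcases : (c = 0 ∨ c = 4 ∨ c = 8 ∨ c = 3) ∨ (c = 1 ∨ c = 5 ∨ c = 9) ∨
      (c = 2 ∨ c = 6 ∨ c = 10) ∨ (c = 7 ∨ c = 11) := by omega
  rcases hcases with h0 | h0 | h0 | h0
  · rw [stay h0]
    rcases h0 with h0 | h0 | h0 | h0
    · subst h0; rfl
    · subst h0; rfl
    · subst h0; rfl
    · rw [he h0, h0]; rfl
  · have h1 : c % 4 = 1 := by omega
    rw [push false (fun S hS => (e S hS).2.1 h0), h1]; rfl
  · have h1 : c % 4 = 2 := by omega
    rw [push true (fun S hS => (e S hS).2.2.1 h0), h1]; rfl
  · have h1 : c % 4 = 3 := by omega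
    rw [pop h0, h1]; rfl

theorem tb_sound {w : Word} (hw : 2 ≤ w.length) {g : ℕ → ℕ → ℕ → Bool} (h : TB w g) :
    w ∈ Lg := by
  set N := w.length with hN
  set B := 2 ^ N with hB
  set W := 2 ^ (N + 1) with hWd
  have hWB : W = 2 * B := by rw [hWd, hB]; ring
  have hBpos : 0 < B := by positivity
  have hNB : N < B := Nat.lt_two_pow_self
  have hTB : ∀ T < B, ∀ S < W, ∀ T' < B, ∀ S' < W, SemB w T S T' S' (g T S) (g T' S') := h
  -- the data of the rows
  have hconst : ∀ T < B, ∀ S < W, ∀ i < 2 * N + 12, g T S i = g T 0 i := by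
    intro T hT S
    induction S with
    | zero => intro _ i _; rfl
    | succ S ih =>
      intro hS i hi
      rw [← ih (by omega) i hi]
      exact ((hTB T hT S (by omega) T hT (S + 1) hS).h1 rfl rfl i hi).symm
  have hq : ∀ T < B, ∃ q < N, (∀ S < W, g T S q = true) ∧
      ∀ S < W, ∀ a < N, g T S a = true → a = q := by
    intro T hT
    have h0 := hTB T hT 0 (by omega) T hT 0 (by omega)
    obtain ⟨q, hqN, hq⟩ := h0.u1
    refine ⟨q, hqN, fun S hS => by rw [hconst T hT S hS q (by omega)]; exact hq,
      fun S hS a ha h1 => ?_⟩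
    rw [hconst T hT S hS a (by omega)] at h1
    rcases lt_trichotomy a q with h2 | h2 | h2
    · exact absurd ⟨h1, hq⟩ (h0.u1' a ha q hqN h2)
    · exact h2
    · exact absurd ⟨hq, h1⟩ (h0.u1' q hqN a ha h2)
  have hk : ∀ T < B, ∃ k < N, (∀ S < W, kp N (g T S) k = true) ∧
      ∀ S < W, ∀ a < N, kp N (g T S) a = true → a = k := by
    intro T hT
    have h0 := hTB T hT 0 (by omega) T hT 0 (by omega)
    obtain ⟨q, hqN, hq⟩ := h0.u2
    refine ⟨q, hqN, fun S hS => by
      unfold kp at *; rw [hconst T hT S hS _ (by omega)]; exact hq,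
      fun S hS a ha h1 => ?_⟩
    have h1' : kp N (g T 0) a = true := by
      unfold kp at *; rw [hconst T hT S hS _ (by omega)] at h1; exact h1
    rcases lt_trichotomy a q with h2 | h2 | h2
    · exact absurd ⟨h1', hq⟩ (h0.u2' a ha q hqN h2)
    · exact h2
    · exact absurd ⟨hq, h1'⟩ (h0.u2' q hqN a ha h2)
  have hc : ∀ T < B, ∃ c < 12, (∀ S < W, th N (g T S) c = true) ∧
      ∀ S < W, ∀ a < 12, th N (g T S) a = true → a = c := by
    intro T hT
    have h0 := hTB T hT 0 (by omega) T hT 0 (by omega)
    obtain ⟨q, hqN, hq⟩ := h0.u3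
    refine ⟨q, hqN, fun S hS => by
      unfold th at *; rw [hconst T hT S hS _ (by omega)]; exact hq,
      fun S hS a ha h1 => ?_⟩
    have h1' : th N (g T 0) a = true := by
      unfold th at *; rw [hconst T hT S hS _ (by omega)] at h1; exact h1
    rcases lt_trichotomy a q with h2 | h2 | h2
    · exact absurd ⟨h1', hq⟩ (h0.u3' a ha q hqN h2)
    · exact h2
    · exact absurd ⟨hq, h1'⟩ (h0.u3' q hqN a ha h2)
  choose! q hqN hq1 hq2 using hq
  choose! k hkN hk1 hk2 using hk
  choose! c hc12 hc1 hc2 using hc
  have hu4 : ∀ T < B, ∀ j < N, ∀ S < W, ¬ (ml N (g T S) j = true ∧ mh N (g T S) j = true) :=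
    fun T hT j hj S hS => (hTB T hT S hS T hT S hS).u4 j hj
  have hrows : ∀ T < B, ∀ j < N, ∃ h, Row W (fun S => mkB (ml N (g T S) j) (mh N (g T S) j)) h := by
    intro T hT j hj
    obtain ⟨h, h1, h2, h3, h4⟩ := row_marks (W := W) (by omega)
      (fun S => mkB (ml N (g T S) j) (mh N (g T S) j)) (fun S hS => by
        have e1 := (hTB T hT S (by omega) T hT (S + 1) hS).h2 rfl rfl j hj
        have e2 := hu4 T hT j hj S (by omega)
        have e3 := hu4 T hT j hj (S + 1) hS
        simp only [mkB_l, mkB_h, mkB_r]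
        rcases e1 with e1 | e1 | e1 | e1
        · left; exact e1
        · right; left
          refine ⟨e1.1, ?_, e1.2⟩
          cases h5 : ml N (g T (S + 1)) j
          · rfl
          · exact absurd ⟨h5, e1.2⟩ e3
        · right; right; left
          refine ⟨⟨?_, e1.1⟩, e1.2⟩
          cases h5 : ml N (g T S) j
          · rfl
          · exact absurd ⟨h5, e1.1⟩ e2
        · right; right; right; exact e1)
      (by
        rw [Ne, mkB_r]
        have := (hTB T hT 0 (by omega) T hT 0 (by omega)).l1 rfl j hj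
        rintro ⟨h5, h6⟩
        rcases this with h7 | h7
        · rw [h5] at h7; cases h7
        · rw [h6] at h7; cases h7)
      (by
        rw [Ne, mkB_l]
        have := (hTB T hT (W - 1) (by omega) T hT 0 (by omega)).r1 rfl j hj
        rw [this]; simp)
    exact ⟨h, h1, h2, h3, h4⟩
  choose! ht hrow using hrows
  -- the memory
  let s : ℕ → ℕ → Word := fun T j => if j < N then stk (ht T j) (fun S => ct N (g T S) j) else []
  have hs : ∀ T, ∀ j < N, s T j = stk (ht T j) (fun S => ct N (g T S) j) := fun T j hj => by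
    simp only [s, if_pos hj]
  have hmlt : ∀ T < B, ∀ j < N, ∀ S < ht T j, ml N (g T S) j = true := fun T hT j hj S hS =>
    mkB_l.1 ((hrow T hT j hj).ml S hS)
  have hmht : ∀ T < B, ∀ j < N, mh N (g T (ht T j)) j = true := fun T hT j hj =>
    (mkB_h.1 (hrow T hT j hj).mh).2
  -- the top of the stack used
  have htop : ∀ T < B, topc (s T (k T)) = c T / 4 := by
    intro T hT
    rw [hs T _ (hkN T hT)]
    have hlt := (hrow T hT (k T) (hkN T hT)).hlt
    rcases hh : ht T (k T) with _ | m
    · have h1 := hmht T hT (k T) (hkN T hT)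
      rw [hh] at h1
      obtain ⟨o, ho, h2⟩ := (hTB T hT 0 (by omega) T hT 0 (by omega)).l2 rfl (k T) (hkN T hT)
        (hk1 T hT 0 (by omega)) h1
      have h3 := hc2 T hT 0 (by omega) o (by omega) h2
      simp only [stk, topc]
      omega
    · rw [hh] at hlt
      have h1 := hmht T hT (k T) (hkN T hT)
      rw [hh] at h1
      have h2 := hmlt T hT (k T) (hkN T hT) m (by omega)
      obtain ⟨h3, h4⟩ := (hTB T hT m (by omega) T hT (m + 1) hlt).h3 rfl rfl (k T) (hkN T hT)
        (hk1 T hT m (by omega)) h2 h1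
      simp only [stk]
      cases h5 : ct N (g T m) (k T)
      · obtain ⟨o, ho, h6⟩ := h4 h5
        have h7 := hc2 T hT m (by omega) (4 + o) (by omega) h6
        simp only [topc]
        omega
      · obtain ⟨o, ho, h6⟩ := h3 h5
        have h7 := hc2 T hT m (by omega) (8 + o) (by omega) h6
        simp only [topc]
        omega
  have hstep : ∀ T, T + 1 < B → StW w (q T, s T) (q (T + 1), s (T + 1)) := by
    intro T hT1
    have hT : T < B := by omega
    have h0 := hTB T hT 0 (by omega) (T + 1) hT1 0 (by omega)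
    obtain ⟨q1, hq1N, q1', hq1'N, c1, hc112, k1, hk1N, a1, a2, a3, a4, a5, a6⟩ := h0.v1 rfl rfl
    have b1 := hq2 T hT 0 (by omega) q1 hq1N a1
    have b2 := hq2 (T + 1) hT1 0 (by omega) q1' hq1'N a2
    have b3 := hc2 T hT 0 (by omega) c1 hc112 a3
    have b4 := hk2 T hT 0 (by omega) k1 hk1N a4
    subst b1 b2 b3 b4
    have hc12' := hc12 T hT
    refine ⟨k T, c T % 4, Nat.mod_lt _ (by norm_num), a6, ?_, ?_⟩
    · simp only
      rw [htop T hT, show 4 * (c T / 4) + c T % 4 = c T by omega]
      exact a5
    · simp only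
      funext j
      rcases eq_or_ne j (k T) with hj | hj
      · rw [hj, Function.update_self, hs (T + 1) _ hk1N, hs T _ hk1N]
        refine stack_step (hrow T hT _ hk1N) (hrow (T + 1) hT1 _ hk1N)
          (fun S hS => hu4 T hT _ hk1N S hS) hc12'
          (fun S hS => (hTB T hT S hS (T + 1) hT1 S hS).v3 rfl rfl _ hk1N (hk1 T hT S hS) _
            hc12' (hc1 T hT S hS)) ?_
        intro hc3
        have h1 := htop T hT
        rw [hc3, hs T _ hk1N] at h1
        rcases hh : ht T (k T) with _ | m
        · rfl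
        · rw [hh] at h1
          simp only [stk] at h1
          cases h5 : ct N (g T m) (k T) <;> rw [h5] at h1 <;> simp [topc] at h1
      · rw [Function.update_of_ne hj]
        by_cases hjN : j < N
        · have hkf : ∀ S < W, kp N (g T S) j = false := fun S hS => by
            cases h5 : kp N (g T S) j
            · rfl
            · exact absurd (hk2 T hT S hS j hjN h5) hj
          have e1 : ∀ S < W, ct N (g (T + 1) S) j = ct N (g T S) j ∧
              ml N (g (T + 1) S) j = ml N (g T S) j ∧ mh N (g (T + 1) S) j = mh N (g T S) j :=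
            fun S hS => (hTB T hT S hS (T + 1) hT1 S hS).v2 rfl rfl j hjN (hkf S hS)
          have e2 : ht (T + 1) j = ht T j := (hrow T hT j hjN).stay (hrow (T + 1) hT1 j hjN)
            (fun S hS => by rw [(e1 S hS).2.1, (e1 S hS).2.2])
          rw [hs (T + 1) j hjN, hs T j hjN, e2]
          exact stk_congr _ (fun i hi => (e1 i (by
            have := (hrow T hT j hjN).hlt; omega)).1)
        · simp only [s, if_neg hjN]
  -- the start
  have hstart : s 0 = start w (s 0 1) := by
    funext j
    rw [start_apply]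
    rcases Nat.lt_trichotomy j 0 with h1 | h1 | h1
    · omega
    · subst h1
      rw [if_pos rfl, hs 0 0 (by omega)]
      have h2 : ht 0 0 = N := by
        have h3 := (hTB 0 hBpos N (by omega) 0 hBpos 0 (by omega)).i1 rfl rfl
        have h4 := hrow 0 hBpos 0 (by omega)
        have h5 := hu4 0 hBpos 0 (by omega) N (by omega)
        have h6 : mkB (ml N (g 0 N) 0) (mh N (g 0 N) 0) = .h := by
          rw [mkB_h]
          refine ⟨?_, h3⟩
          cases h7 : ml N (g 0 N) 0
          · rfl
          · exact absurd ⟨h7, h3⟩ h5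
        rcases lt_trichotomy (ht 0 0) N with h7 | h7 | h7
        · have := h4.mr N h7 (by omega); rw [h6] at this; cases this
        · exact h7
        · have := h4.ml N h7; rw [h6] at this; cases this
      rw [h2]
      exact stk_eq w _ fun i hi j hj hij =>
        (hTB 0 hBpos i (by omega) 0 hBpos 0 (by omega)).i2 rfl i hi j hj hij rfl
    · rw [if_neg (by omega)]
      by_cases h2 : j = 1
      · rw [if_pos h2, h2]
      · rw [if_neg h2]
        by_cases hjN : j < N
        · rw [hs 0 j hjN]
          have h3 := (hTB 0 hBpos 0 (by omega) 0 hBpos 0 (by omega)).i3 rfl rfl j hjN (by omega)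
          have h4 := hrow 0 hBpos j hjN
          have h5 := hu4 0 hBpos j hjN 0 (by omega)
          have h6 : mkB (ml N (g 0 0) j) (mh N (g 0 0) j) = .h := by
            rw [mkB_h]
            refine ⟨?_, h3⟩
            cases h7 : ml N (g 0 0) j
            · rfl
            · exact absurd ⟨h7, h3⟩ h5
          have h7 : ht 0 j = 0 := by
            by_contra h8
            have := h4.ml 0 (by omega); rw [h6] at this; cases this
          rw [h7]; rfl
        · simp only [s, if_neg hjN]
  refine ⟨s 0 1, ?_, fun T => (q T, s T), ?_, fun T hT => hstep T (by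
    have hB' : 2 ^ w.length = B := rfl
    omega), ?_⟩
  · rw [hs 0 1 (by omega), stk_length]
    by_contra h1
    push Not at h1
    have h2 := (hTB 0 hBpos B (by omega) 0 hBpos 0 (by omega)).i4 rfl rfl
    rw [hmlt 0 hBpos 1 (by omega) B h1] at h2
    cases h2
  · simp only
    rw [← hstart]
    congr 1
    exact (hq2 0 hBpos 0 (by omega) 0 (by omega)
      ((hTB 0 hBpos 0 (by omega) 0 hBpos 0 (by omega)).i0 rfl)).symm
  · simp only
    exact (hq2 (B - 1) (by omega) 0 (by omega) 1 (by omega)
      ((hTB (B - 1) (by omega) 0 (by omega) 0 hBpos 0 (by omega)).f1 rfl)).symm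

end Vale.Agent.P027.N.D
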